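import Mathlib
import Vale.Agent.Lib.P343.Defs
import Vale.Agent.Lib.P343.Bound
import Vale.Agent.Lib.P343.OneWay

namespace Vale.Agent.Results.P343.A_main

open Vale.Agent.Lib.P343

theorem result (n k : ℕ) :
    (∃ A : TwoNFA (Fin n ⊕ Bool) (Letter n), A.OneWay ∧ ∀ w, A.Accepts w ↔ Live w) ∧
    ∀ (Q : Type) [Fintype Q] (M : TwoDFA Q (Letter n)),
      (∀ w, M.Accepts w ↔ Live w) →
      (∀ w, ¬ Live w → M.PassCrossingBound w k) →
      2 ^ n ≤ 16 * (Fintype.card Q + 1) ^ (2 * k + 4) :=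
  ⟨⟨lvA n, lvA_oneWay, lvA_accepts⟩, fun _ _ M h1 h2 => bound_of_machine M h1 h2⟩

end Vale.Agent.Results.P343.A_main
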